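import Vale.Agent.P265.H970.Basics
import Mathlib.Analysis.Normed.Module.Connected
import Mathlib.LinearAlgebra.Complex.FiniteDimensional
import Mathlib.Analysis.SpecialFunctions.Pow.Continuity
import Mathlib.Tactic

/-!
# The manifold `M` of Model P is connected
-/

open Set
open scoped Quaternion

namespace Vale.Agent.P265.Dis.Conn

/-- The cone region of the pairs `(z1, z2)` with `f ≠ 0` and `|D| ≤ 2 |f|`. -/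
def U : Set (ℂ × ℂ) :=
  {p | p.1 ^ 2 + p.2 ^ 3 ≠ 0 ∧ ‖p.1 ^ 2 - p.2 ^ 3‖ ≤ 2 * ‖p.1 ^ 2 + p.2 ^ 3‖}

theorem key {a b : ℂ} (hba : ‖b‖ ≤ ‖a‖) (h0 : a + b ≠ 0) (h : ‖a - b‖ ≤ 2 * ‖a + b‖)
    {τ : ℝ} (h1 : 0 ≤ τ) (h2 : τ ≤ 1) :
    a + τ * b ≠ 0 ∧ ‖a - τ * b‖ ≤ 2 * ‖a + τ * b‖ := by
  have hmain : ‖a - τ * b‖ ≤ 2 * ‖a + τ * b‖ := by
    have e1 : ‖a - b‖ ^ 2 = ‖a‖ ^ 2 - 2 * inner ℝ a b + ‖b‖ ^ 2 := norm_sub_sq_real a b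
    have e2 : ‖a + b‖ ^ 2 = ‖a‖ ^ 2 + 2 * inner ℝ a b + ‖b‖ ^ 2 := norm_add_sq_real a b
    have e3 : ‖a - τ * b‖ ^ 2 = ‖a‖ ^ 2 - 2 * (τ * inner ℝ a b) + τ ^ 2 * ‖b‖ ^ 2 := by
      rw [← Complex.real_smul, norm_sub_sq_real, inner_smul_right, norm_smul, mul_pow,
        Real.norm_eq_abs, sq_abs]
    have e4 : ‖a + τ * b‖ ^ 2 = ‖a‖ ^ 2 + 2 * (τ * inner ℝ a b) + τ ^ 2 * ‖b‖ ^ 2 := by
      rw [← Complex.real_smul, norm_add_sq_real, inner_smul_right, norm_smul, mul_pow,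
        Real.norm_eq_abs, sq_abs]
    have hsq : ‖a - b‖ ^ 2 ≤ 4 * ‖a + b‖ ^ 2 := by
      have := pow_le_pow_left₀ (norm_nonneg _) h 2
      linarith [this, mul_pow (2 : ℝ) ‖a + b‖ 2]
    have hab : ‖b‖ ^ 2 ≤ ‖a‖ ^ 2 := pow_le_pow_left₀ (norm_nonneg _) hba 2
    have hR : 0 ≤ 3 * ‖a‖ ^ 2 + 10 * inner ℝ a b + 3 * ‖b‖ ^ 2 := by
      rw [e1, e2] at hsq; linarith
    have hA : 0 ≤ (1 - τ) * (‖a‖ ^ 2 - τ * ‖b‖ ^ 2) := by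
      apply mul_nonneg (by linarith)
      nlinarith [sq_nonneg ‖b‖]
    have hfin : ‖a - τ * b‖ ^ 2 ≤ (2 * ‖a + τ * b‖) ^ 2 := by
      rw [mul_pow, e3, e4]
      nlinarith [mul_nonneg h1 hR]
    exact le_of_sq_le_sq hfin (by positivity)
  refine ⟨fun h3 => ?_, hmain⟩
  rw [h3, norm_zero, mul_zero] at hmain
  have h4 : a - τ * b = 0 := norm_le_zero_iff.1 hmain
  have h5 : a = 0 := by linear_combination (h3 + h4) / 2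
  have h6 : b = 0 := by
    rw [h5, norm_zero] at hba
    exact norm_le_zero_iff.1 hba
  exact h0 (by rw [h5, h6, add_zero])

theorem joined1 {p : ℂ × ℂ} (hp : p ∈ U) (h : ‖p.2 ^ 3‖ ≤ ‖p.1 ^ 2‖) :
    JoinedIn U p (p.1, 0) := by
  refine JoinedIn.ofLine (f := fun t : ℝ => (p.1, ((1 - t : ℝ) : ℂ) * p.2)) (by fun_prop)
    (by ext <;> simp) (by ext <;> simp) ?_
  rintro _ ⟨t, ⟨ht0, ht1⟩, rfl⟩
  have h0 : 0 ≤ 1 - t := by linarith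
  have h1 : 1 - t ≤ 1 := by linarith
  have := key h hp.1 hp.2 (τ := (1 - t) ^ 3) (pow_nonneg h0 3) (pow_le_one₀ h0 h1)
  have e : (((1 - t : ℝ) : ℂ) * p.2) ^ 3 = ((1 - t) ^ 3 : ℝ) * p.2 ^ 3 := by
    push_cast; ring
  change p.1 ^ 2 + (((1 - t : ℝ) : ℂ) * p.2) ^ 3 ≠ 0 ∧
    ‖p.1 ^ 2 - (((1 - t : ℝ) : ℂ) * p.2) ^ 3‖ ≤ 2 * ‖p.1 ^ 2 + (((1 - t : ℝ) : ℂ) * p.2) ^ 3‖
  rw [e]
  exact this

theorem joined2 {p : ℂ × ℂ} (hp : p ∈ U) (h : ‖p.1 ^ 2‖ ≤ ‖p.2 ^ 3‖) :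
    JoinedIn U p (0, p.2) := by
  refine JoinedIn.ofLine (f := fun t : ℝ => (((1 - t : ℝ) : ℂ) * p.1, p.2)) (by fun_prop)
    (by ext <;> simp) (by ext <;> simp) ?_
  rintro _ ⟨t, ⟨ht0, ht1⟩, rfl⟩
  have h0 : 0 ≤ 1 - t := by linarith
  have h1 : 1 - t ≤ 1 := by linarith
  have := key h (by rw [add_comm]; exact hp.1) (by rw [norm_sub_rev, add_comm]; exact hp.2)
    (τ := (1 - t) ^ 2) (pow_nonneg h0 2) (pow_le_one₀ h0 h1)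
  have e : (((1 - t : ℝ) : ℂ) * p.1) ^ 2 = ((1 - t) ^ 2 : ℝ) * p.1 ^ 2 := by
    push_cast; ring
  change (((1 - t : ℝ) : ℂ) * p.1) ^ 2 + p.2 ^ 3 ≠ 0 ∧
    ‖(((1 - t : ℝ) : ℂ) * p.1) ^ 2 - p.2 ^ 3‖ ≤ 2 * ‖(((1 - t : ℝ) : ℂ) * p.1) ^ 2 + p.2 ^ 3‖
  rw [e, norm_sub_rev, add_comm]
  exact this

theorem pathConn0 : IsPathConnected ({0}ᶜ : Set ℂ) :=
  isPathConnected_compl_singleton_of_one_lt_rank
    (by rw [Complex.rank_real_complex]; exact Cardinal.one_lt_two) 0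

theorem joined3 {z : ℂ} (hz : z ≠ 0) : JoinedIn U (z, 0) (1, 0) := by
  have h := (pathConn0.joinedIn z hz 1 one_ne_zero).map (f := fun z : ℂ => (z, (0 : ℂ)))
    (by fun_prop)
  refine h.mono ?_
  rintro _ ⟨y, hy, rfl⟩
  have hy' : y ≠ 0 := hy
  have hn := norm_nonneg (y ^ 2)
  refine ⟨by simpa using hy', ?_⟩
  have e1 : y ^ 2 - (0 : ℂ) ^ 3 = y ^ 2 := by ring
  have e2 : y ^ 2 + (0 : ℂ) ^ 3 = y ^ 2 := by ring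
  change ‖y ^ 2 - (0 : ℂ) ^ 3‖ ≤ 2 * ‖y ^ 2 + (0 : ℂ) ^ 3‖
  rw [e1, e2]
  linarith

theorem joined4 {z : ℂ} (hz : z ≠ 0) : JoinedIn U (0, z) (0, 1) := by
  have h := (pathConn0.joinedIn z hz 1 one_ne_zero).map (f := fun z : ℂ => ((0 : ℂ), z))
    (by fun_prop)
  refine h.mono ?_
  rintro _ ⟨y, hy, rfl⟩
  have hy' : y ≠ 0 := hy
  have hn := norm_nonneg (y ^ 3)
  refine ⟨by simpa using hy', ?_⟩
  have e1 : (0 : ℂ) ^ 2 - y ^ 3 = - y ^ 3 := by ring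
  have e2 : (0 : ℂ) ^ 2 + y ^ 3 = y ^ 3 := by ring
  change ‖(0 : ℂ) ^ 2 - y ^ 3‖ ≤ 2 * ‖(0 : ℂ) ^ 2 + y ^ 3‖
  rw [e1, e2, norm_neg]
  linarith

theorem joined5 : JoinedIn U (1, 0) (0, 1) := by
  refine JoinedIn.ofLine (f := fun t : ℝ => (((1 - t : ℝ) : ℂ), (t : ℂ))) (by fun_prop)
    (by ext <;> simp) (by ext <;> simp) ?_
  rintro _ ⟨t, ⟨ht0, ht1⟩, rfl⟩
  have e1 : ((1 - t : ℝ) : ℂ) ^ 2 + (t : ℂ) ^ 3 = (((1 - t) ^ 2 + t ^ 3 : ℝ) : ℂ) := by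
    push_cast; ring
  have e2 : ((1 - t : ℝ) : ℂ) ^ 2 - (t : ℂ) ^ 3 = (((1 - t) ^ 2 - t ^ 3 : ℝ) : ℂ) := by
    push_cast; ring
  have h3 : 0 ≤ t ^ 3 := by positivity
  have hpos : 0 < (1 - t) ^ 2 + t ^ 3 := by
    rcases ht1.lt_or_eq with h | h
    · have : 0 < (1 - t) ^ 2 := by
        have : 0 < 1 - t := by linarith
        positivity
      linarith
    · rw [h]; norm_num
  change ((1 - t : ℝ) : ℂ) ^ 2 + (t : ℂ) ^ 3 ≠ 0 ∧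
    ‖((1 - t : ℝ) : ℂ) ^ 2 - (t : ℂ) ^ 3‖ ≤ 2 * ‖((1 - t : ℝ) : ℂ) ^ 2 + (t : ℂ) ^ 3‖
  rw [e1, e2, Complex.norm_real, Complex.norm_real, Real.norm_eq_abs, Real.norm_eq_abs,
    abs_of_pos hpos]
  refine ⟨by exact_mod_cast hpos.ne', ?_⟩
  rw [abs_le]
  constructor <;> nlinarith [sq_nonneg (1 - t)]

theorem isPathConnected_U : IsPathConnected U := by
  have hbase : ((1 : ℂ), (0 : ℂ)) ∈ U := (joined3 (z := 1) one_ne_zero).source_mem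
  refine ⟨(1, 0), hbase, fun {p} hp => ?_⟩
  rcases le_total ‖p.2 ^ 3‖ ‖p.1 ^ 2‖ with h | h
  · have hp1 : p.1 ≠ 0 := by
      intro h0
      rw [h0] at h
      have h1 : ‖p.2 ^ 3‖ ≤ 0 := by simpa using h
      exact hp.1 (by rw [norm_le_zero_iff.1 h1, h0]; simp)
    exact ((joined1 hp h).trans (joined3 hp1)).symm
  · have hp1 : p.2 ≠ 0 := by
      intro h0
      rw [h0] at h
      have h1 : ‖p.1 ^ 2‖ ≤ 0 := by simpa using h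
      exact hp.1 (by rw [norm_le_zero_iff.1 h1, h0]; simp)
    exact (((joined2 hp h).trans (joined4 hp1)).trans joined5.symm).symm

/-- The sphere of imaginary unit quaternions. -/
def S2 : Set ℍ[ℝ] := {v | ‖v‖ = 1 ∧ v.re = 0}

/-- Imaginary quaternions from vectors. -/
noncomputable def g (x : EuclideanSpace ℝ (Fin 3)) : ℍ[ℝ] :=
  x 0 • (⟨0, 1, 0, 0⟩ : ℍ[ℝ]) + x 1 • (⟨0, 0, 1, 0⟩ : ℍ[ℝ]) + x 2 • (⟨0, 0, 0, 1⟩ : ℍ[ℝ])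

theorem g_eq (x : EuclideanSpace ℝ (Fin 3)) : g x = ⟨0, x 0, x 1, x 2⟩ := by
  ext <;> simp [g]

theorem continuous_g : Continuous g := by
  have h (i : Fin 3) : Continuous (fun x : EuclideanSpace ℝ (Fin 3) => x i) := by fun_prop
  exact (((h 0).smul continuous_const).add ((h 1).smul continuous_const)).add
    ((h 2).smul continuous_const)

theorem norm_g (x : EuclideanSpace ℝ (Fin 3)) : ‖g x‖ = ‖x‖ := by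
  have h1 : ‖g x‖ ^ 2 = x 0 ^ 2 + x 1 ^ 2 + x 2 ^ 2 := by
    rw [sq, ← Quaternion.normSq_eq_norm_mul_self, Quaternion.normSq_def', g_eq]
    simp
  have h2 : ‖x‖ ^ 2 = x 0 ^ 2 + x 1 ^ 2 + x 2 ^ 2 := by
    rw [EuclideanSpace.norm_sq_eq, Fin.sum_univ_three]
    simp
  have h3 : ‖g x‖ ^ 2 = ‖x‖ ^ 2 := by rw [h1, h2]
  exact (sq_eq_sq₀ (norm_nonneg _) (norm_nonneg _)).1 h3

theorem isConnected_S2 : IsConnected S2 := by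
  have h1 : IsConnected (Metric.sphere (0 : EuclideanSpace ℝ (Fin 3)) 1) := by
    apply isConnected_sphere _ _ zero_le_one
    rw [← Module.finrank_eq_rank, finrank_euclideanSpace_fin]
    norm_num
  have h2 : g '' Metric.sphere 0 1 = S2 := by
    apply Subset.antisymm
    · rintro _ ⟨x, hx, rfl⟩
      refine ⟨?_, ?_⟩
      · rw [norm_g]; simpa using hx
      · rw [g_eq]
    · rintro v ⟨hv, hre⟩
      have e : g (WithLp.toLp 2 ![v.imI, v.imJ, v.imK]) = v := by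
        rw [g_eq]
        ext <;> simp [hre]
      refine ⟨WithLp.toLp 2 ![v.imI, v.imJ, v.imK], ?_, e⟩
      rw [mem_sphere_zero_iff_norm, ← norm_g, e, hv]
  rw [← h2]
  exact h1.image _ continuous_g.continuousOn

/-- The normalisation factor `|f|^(-1/6)`. -/
noncomputable def ρ (p : ℂ × ℂ) : ℝ := ‖p.1 ^ 2 + p.2 ^ 3‖ ^ (-(1 / 6) : ℝ)

theorem ρ_pow {p : ℂ × ℂ} (hp : p.1 ^ 2 + p.2 ^ 3 ≠ 0) :
    ρ p ^ 6 * ‖p.1 ^ 2 + p.2 ^ 3‖ = 1 := by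
  have h : 0 < ‖p.1 ^ 2 + p.2 ^ 3‖ := norm_pos_iff.2 hp
  have : ρ p ^ 6 = ‖p.1 ^ 2 + p.2 ^ 3‖ ^ (-1 : ℝ) := by
    rw [ρ, ← Real.rpow_natCast, ← Real.rpow_mul h.le]
    norm_num
  rw [this, Real.rpow_neg_one, inv_mul_cancel₀ h.ne']

/-- The parametrisation of the two halves of the level set. -/
noncomputable def Ψ (σ : ℝ) (x : ℂ × (ℂ × ℂ) × ℍ[ℝ]) : E :=
  ((x.1, ((ρ x.2.1 ^ 3 : ℝ) : ℂ) * x.2.1.1, ((ρ x.2.1 ^ 2 : ℝ) : ℂ) * x.2.1.2,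
    σ * √(4 - (‖x.2.1.1 ^ 2 - x.2.1.2 ^ 3‖ / ‖x.2.1.1 ^ 2 + x.2.1.2 ^ 3‖) ^ 2)), x.2.2)

/-- The parameter space. -/
def X : Set (ℂ × (ℂ × ℂ) × ℍ[ℝ]) := Metric.sphere 0 1 ×ˢ (U ×ˢ S2)

theorem isConnected_X : IsConnected X := by
  have h1 : IsConnected (Metric.sphere (0 : ℂ) 1) :=
    isConnected_sphere (by rw [Complex.rank_real_complex]; exact Cardinal.one_lt_two) _ zero_le_one
  exact h1.prod (isPathConnected_U.isConnected.prod isConnected_S2)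

theorem continuousOn_Ψ (σ : ℝ) : ContinuousOn (Ψ σ) X := by
  have hU : ∀ x ∈ X, ‖x.2.1.1 ^ 2 + x.2.1.2 ^ 3‖ ≠ 0 := fun x hx =>
    norm_ne_zero_iff.2 hx.2.1.1
  have hρ : ContinuousOn (fun x : ℂ × (ℂ × ℂ) × ℍ[ℝ] => ρ x.2.1) X := by
    unfold ρ
    exact ContinuousOn.rpow_const (by fun_prop) fun x hx => Or.inl (hU x hx)
  have hq : ContinuousOn (fun x : ℂ × (ℂ × ℂ) × ℍ[ℝ] =>
      ‖x.2.1.1 ^ 2 - x.2.1.2 ^ 3‖ / ‖x.2.1.1 ^ 2 + x.2.1.2 ^ 3‖) X :=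
    ContinuousOn.div (by fun_prop) (by fun_prop) hU
  have hs : ContinuousOn (fun x : ℂ × (ℂ × ℂ) × ℍ[ℝ] =>
      σ * √(4 - (‖x.2.1.1 ^ 2 - x.2.1.2 ^ 3‖ / ‖x.2.1.1 ^ 2 + x.2.1.2 ^ 3‖) ^ 2)) X :=
    continuousOn_const.mul (Real.continuous_sqrt.comp_continuousOn
      (continuousOn_const.sub (hq.pow 2)))
  have h1 : ContinuousOn (fun x : ℂ × (ℂ × ℂ) × ℍ[ℝ] =>
      ((ρ x.2.1 ^ 3 : ℝ) : ℂ) * x.2.1.1) X :=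
    (Complex.continuous_ofReal.comp_continuousOn (hρ.pow 3)).mul (by fun_prop)
  have h2 : ContinuousOn (fun x : ℂ × (ℂ × ℂ) × ℍ[ℝ] =>
      ((ρ x.2.1 ^ 2 : ℝ) : ℂ) * x.2.1.2) X :=
    (Complex.continuous_ofReal.comp_continuousOn (hρ.pow 2)).mul (by fun_prop)
  exact (continuousOn_fst.prodMk (h1.prodMk (h2.prodMk hs))).prodMk (by fun_prop)

theorem ratio_le {p : ℂ × ℂ} (hp : p ∈ U) :
    ‖p.1 ^ 2 - p.2 ^ 3‖ / ‖p.1 ^ 2 + p.2 ^ 3‖ ≤ 2 :=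
  (div_le_iff₀ (norm_pos_iff.2 hp.1)).2 hp.2

theorem G_Ψ {σ : ℝ} (hσ : σ ^ 2 = 1) {x : ℂ × (ℂ × ℂ) × ℍ[ℝ]} (hx : x ∈ X) :
    G (Ψ σ x) = 0 := by
  obtain ⟨hc, hp, hv, hre⟩ := hx
  have hf : 0 < ‖x.2.1.1 ^ 2 + x.2.1.2 ^ 3‖ := norm_pos_iff.2 hp.1
  have hr := ρ_pow hp.1
  have hρ : 0 ≤ ρ x.2.1 := Real.rpow_nonneg (norm_nonneg _) _
  rw [mem_iff]
  refine ⟨?_, ?_, ?_, hv, hre⟩
  · simpa [Ψ] using hc
  · have : fW (Ψ σ x).1 = ((ρ x.2.1 ^ 6 : ℝ) : ℂ) * (x.2.1.1 ^ 2 + x.2.1.2 ^ 3) := by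
      simp only [fW, Ψ]; push_cast; ring
    rw [this, norm_mul, Complex.norm_real, Real.norm_eq_abs, abs_of_nonneg (by positivity), hr]
  · have h1 : dW (Ψ σ x).1 = ((ρ x.2.1 ^ 6 : ℝ) : ℂ) * (x.2.1.1 ^ 2 - x.2.1.2 ^ 3) := by
      simp only [dW, Ψ]; push_cast; ring
    have h2 : ‖dW (Ψ σ x).1‖ = ‖x.2.1.1 ^ 2 - x.2.1.2 ^ 3‖ / ‖x.2.1.1 ^ 2 + x.2.1.2 ^ 3‖ := by
      rw [h1, norm_mul, Complex.norm_real, Real.norm_eq_abs, abs_of_nonneg (by positivity),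
        eq_div_iff hf.ne']
      linear_combination ‖x.2.1.1 ^ 2 - x.2.1.2 ^ 3‖ * hr
    rw [h2]
    have h3 := ratio_le hp
    have h4 : 0 ≤ ‖x.2.1.1 ^ 2 - x.2.1.2 ^ 3‖ / ‖x.2.1.1 ^ 2 + x.2.1.2 ^ 3‖ := by positivity
    change _ + (σ * √(4 - (‖x.2.1.1 ^ 2 - x.2.1.2 ^ 3‖ / ‖x.2.1.1 ^ 2 + x.2.1.2 ^ 3‖) ^ 2)) ^ 2
      = 4
    rw [mul_pow, hσ, Real.sq_sqrt (by nlinarith)]
    ring

theorem mem_image {x : E} (hx : G x = 0) {σ : ℝ} (hs : x.1.2.2.2 = σ * |x.1.2.2.2|) :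
    x ∈ Ψ σ '' X := by
  obtain ⟨hc, hf, hD, hv, hre⟩ := (mem_iff x).1 hx
  have hf' : ‖x.1.2.1 ^ 2 + x.1.2.2.1 ^ 3‖ = 1 := hf
  have hD' : ‖x.1.2.1 ^ 2 - x.1.2.2.1 ^ 3‖ ^ 2 + x.1.2.2.2 ^ 2 = 4 := hD
  have hD2 : ‖x.1.2.1 ^ 2 - x.1.2.2.1 ^ 3‖ ≤ 2 := by
    nlinarith [norm_nonneg (x.1.2.1 ^ 2 - x.1.2.2.1 ^ 3), sq_nonneg x.1.2.2.2]
  have hρ : ρ (x.1.2.1, x.1.2.2.1) = 1 := by
    unfold ρ
    change ‖x.1.2.1 ^ 2 + x.1.2.2.1 ^ 3‖ ^ (-(1 / 6) : ℝ) = 1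
    rw [hf', Real.one_rpow]
  refine ⟨(x.1.1, (x.1.2.1, x.1.2.2.1), x.2), ⟨by simpa using hc, ⟨?_, ?_⟩, hv, hre⟩, ?_⟩
  · intro h
    change x.1.2.1 ^ 2 + x.1.2.2.1 ^ 3 = 0 at h
    rw [h, norm_zero] at hf'
    exact zero_ne_one hf'
  · change ‖x.1.2.1 ^ 2 - x.1.2.2.1 ^ 3‖ ≤ 2 * ‖x.1.2.1 ^ 2 + x.1.2.2.1 ^ 3‖
    rw [hf']; linarith
  · have hsq : √(4 - (‖x.1.2.1 ^ 2 - x.1.2.2.1 ^ 3‖ / ‖x.1.2.1 ^ 2 + x.1.2.2.1 ^ 3‖) ^ 2) =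
        |x.1.2.2.2| := by
      rw [hf', div_one, ← Real.sqrt_sq_eq_abs]
      congr 1
      linarith
    simp only [Ψ, hρ, hsq, ← hs]
    ext <;> simp

theorem isConnected_level : IsConnected {x : E | G x = 0} := by
  have hU : {x : E | G x = 0} = Ψ 1 '' X ∪ Ψ (-1) '' X := by
    apply Subset.antisymm
    · intro x hx
      rcases le_total 0 x.1.2.2.2 with h | h
      · exact Or.inl (mem_image hx (by rw [abs_of_nonneg h, one_mul]))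
      · exact Or.inr (mem_image hx (by rw [abs_of_nonpos h]; ring))
    · rintro _ (⟨x, hx, rfl⟩ | ⟨x, hx, rfl⟩)
      · exact G_Ψ (by norm_num) hx
      · exact G_Ψ (by norm_num) hx
  rw [hU]
  obtain ⟨v, hv⟩ := isConnected_S2.nonempty
  have h3 : ((√3 : ℝ) : ℂ) ^ 2 = 3 := by
    rw [← Complex.ofReal_pow, Real.sq_sqrt (by norm_num)]; norm_num
  have e1 : ((√3 : ℝ) : ℂ) ^ 2 + (-1 : ℂ) ^ 3 = 2 := by rw [h3]; norm_num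
  have e2 : ((√3 : ℝ) : ℂ) ^ 2 - (-1 : ℂ) ^ 3 = 4 := by rw [h3]; norm_num
  have hX : ((1 : ℂ), (((√3 : ℝ) : ℂ), (-1 : ℂ)), v) ∈ X := by
    refine ⟨by simp, ⟨?_, ?_⟩, hv⟩
    · change ((√3 : ℝ) : ℂ) ^ 2 + (-1 : ℂ) ^ 3 ≠ 0
      rw [e1]; norm_num
    · change ‖((√3 : ℝ) : ℂ) ^ 2 - (-1 : ℂ) ^ 3‖ ≤ 2 * ‖((√3 : ℝ) : ℂ) ^ 2 + (-1 : ℂ) ^ 3‖
      rw [e1, e2]; norm_num
  have heq : Ψ 1 ((1 : ℂ), (((√3 : ℝ) : ℂ), (-1 : ℂ)), v) =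
      Ψ (-1) ((1 : ℂ), (((√3 : ℝ) : ℂ), (-1 : ℂ)), v) := by
    have : √(4 - (‖((√3 : ℝ) : ℂ) ^ 2 - (-1 : ℂ) ^ 3‖ / ‖((√3 : ℝ) : ℂ) ^ 2 + (-1 : ℂ) ^ 3‖) ^ 2)
        = 0 := by
      rw [e1, e2]; norm_num
    simp only [Ψ, this, mul_zero]
  refine IsConnected.union ⟨_, ⟨_, hX, rfl⟩, ⟨_, hX, heq.symm⟩⟩
    (isConnected_X.image _ (continuousOn_Ψ 1)) (isConnected_X.image _ (continuousOn_Ψ (-1)))

end Vale.Agent.P265.Dis.Conn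

namespace Vale.Agent.P265.Dis

instance : ConnectedSpace M := isConnected_iff_connectedSpace.1 Conn.isConnected_level

end Vale.Agent.P265.Dis
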